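import Vale.Agent.P291Z.Quiv0

/-!
# Base change of linear endomorphisms of `N` and their commutation with `G(S)`
-/

set_option linter.unusedSectionVars false
set_option linter.unusedSimpArgs false

namespace Vale.Agent.P291Z.QL

open Set Function Matrix Quiv

variable {I E : Type} {Q : Quiv I E}

/-- The index set of the coordinates of `N`. -/
abbrev Ix (Q : Quiv I E) : Type :=
  (Σ e : E, Fin (Q.v (Q.t e)) × Fin (Q.v (Q.s e))) ⊕ (Σ i : I, Fin (Q.w i) × Fin (Q.v i))

/-- The coordinates of a point of `N`. -/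
def co {R : Type} (x : Q.N R) : Ix Q → R
  | Sum.inl c => x.1 c.1 c.2.1 c.2.2
  | Sum.inr c => x.2 c.1 c.2.1 c.2.2

/-- The point with given coordinates. -/
def ofCo {R : Type} (y : Ix Q → R) : Q.N R :=
  (fun e => Matrix.of fun a b => y (Sum.inl ⟨e, a, b⟩),
    fun i => Matrix.of fun a b => y (Sum.inr ⟨i, a, b⟩))

@[simp] theorem co_ofCo {R : Type} (y : Ix Q → R) : co (ofCo y) = y := by
  funext c; cases c <;> rfl

theorem co_ext {R : Type} {x y : Q.N R} (h : ∀ c, co x c = co y c) : x = y :=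
  Prod.ext (funext fun e => Matrix.ext fun a b => h (Sum.inl ⟨e, a, b⟩))
    (funext fun i => Matrix.ext fun a b => h (Sum.inr ⟨i, a, b⟩))

/-- Apply a map to all coordinates. -/
def mapN {R S : Type} (f : R → S) (x : Q.N R) : Q.N S :=
  (fun e => (x.1 e).map f, fun i => (x.2 i).map f)

@[simp] theorem co_mapN {R S : Type} (f : R → S) (x : Q.N R) (c : Ix Q) :
    co (mapN f x) c = f (co x c) := by
  cases c <;> rfl

section ring

variable {R S : Type} [CommRing R] [CommRing S]

@[simp] theorem co_add (x y : Q.N R) (c : Ix Q) : co (x + y) c = co x c + co y c := by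
  cases c <;> rfl

@[simp] theorem co_sub (x y : Q.N R) (c : Ix Q) : co (x - y) c = co x c - co y c := by
  cases c <;> rfl

@[simp] theorem co_zero (c : Ix Q) : co (0 : Q.N R) c = 0 := by
  cases c <;> rfl

@[simp] theorem co_smul (a : R) (x : Q.N R) (c : Ix Q) : co (a • x) c = a * co x c := by
  cases c <;> rfl

theorem co_sum {J : Type} (s : Finset J) (x : J → Q.N R) (c : Ix Q) :
    co (∑ j ∈ s, x j) c = ∑ j ∈ s, co (x j) c := by
  classical
  induction s using Finset.induction_on with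
  | empty => simp
  | insert a s ha ih => simp [Finset.sum_insert ha, ih]

/-- The two-sided action `x ↦ g x h`. -/
def act (g h : Q.En R) : Q.N R →ₗ[R] Q.N R where
  toFun x := (fun e => g (Q.t e) * x.1 e * h (Q.s e), fun i => x.2 i * h i)
  map_add' x y := by ext <;> simp [Matrix.mul_add, Matrix.add_mul]
  map_smul' c x := by ext <;> simp

theorem gauge_eq_act (g : Q.En R) : Q.gauge g = act g fun i => (g i)⁻¹ := rfl

theorem act_smul (g h : Q.En R) (a : R) (x : Q.N R) : act g (a • h) x = a • act g h x := by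
  refine Prod.ext (funext fun e => ?_) (funext fun i => ?_) <;> simp [act]

theorem mapN_act (φ : R →+* S) (g h : Q.En R) (x : Q.N R) :
    mapN φ (act g h x) = act (fun i => (g i).map φ) (fun i => (h i).map φ) (mapN φ x) := by
  refine Prod.ext (funext fun e => ?_) (funext fun i => ?_) <;> simp [act, mapN, Matrix.map_mul]

theorem map_inv_of_isUnit {n : Type} [Fintype n] [DecidableEq n] (φ : R →+* S) {g : Matrix n n R}
    (hg : IsUnit g.det) : (g⁻¹).map φ = (g.map φ)⁻¹ := by
  symm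
  apply Matrix.inv_eq_left_inv
  rw [← Matrix.map_mul, Matrix.nonsing_inv_mul _ hg, Matrix.map_one _ (map_zero φ) (map_one φ)]

theorem mapN_gauge (φ : R →+* S) {g : Q.En R} (hg : ∀ i, IsUnit (g i).det) (x : Q.N R) :
    mapN φ (Q.gauge g x) = Q.gauge (fun i => (g i).map φ) (mapN φ x) := by
  rw [gauge_eq_act, gauge_eq_act, mapN_act]
  simp only [map_inv_of_isUnit φ (hg _)]

end ring

section ext

variable [Fintype I] [Fintype E] {R S : Type} [CommRing R] [CommRing S] [Algebra ℂ R] [Algebra ℂ S]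

open Classical in
/-- The basis vectors of `N`. -/
noncomputable def bas (c : Ix Q) : Q.N ℂ := ofCo (Pi.single c 1)

open Classical in
theorem eq_sum_bas (x : Q.N R) : x = ∑ c, co x c • mapN (algebraMap ℂ R) (bas c) := by
  refine co_ext fun c => ?_
  rw [co_sum, Finset.sum_eq_single c]
  · simp [bas]
  · intro c' _ h
    simp [bas, Pi.single_eq_of_ne h.symm]
  · simp

/-- The extension of scalars of a linear endomorphism of `N`. -/
noncomputable def ext (ψ : Q.N ℂ →ₗ[ℂ] Q.N ℂ) (R : Type) [CommRing R] [Algebra ℂ R] :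
    Q.N R →ₗ[R] Q.N R where
  toFun x := ∑ c, co x c • mapN (algebraMap ℂ R) (ψ (bas c))
  map_add' x y := by simp [add_smul, Finset.sum_add_distrib]
  map_smul' a x := by simp [Finset.smul_sum, smul_smul]

variable (ψ : Q.N ℂ →ₗ[ℂ] Q.N ℂ)

theorem co_ext_apply (x : Q.N R) (c : Ix Q) :
    co (ext ψ R x) c = ∑ c', co (ψ (bas c')) c • co x c' := by
  change co (∑ c, co x c • mapN (algebraMap ℂ R) (ψ (bas c))) c = _
  rw [co_sum]
  refine Finset.sum_congr rfl fun c' _ => ?_
  rw [co_smul, co_mapN, Algebra.smul_def, mul_comm]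

theorem mapN_ext (f : R →ₗ[ℂ] S) (x : Q.N R) : mapN f (ext ψ R x) = ext ψ S (mapN f x) := by
  refine co_ext fun c => ?_
  rw [co_mapN, co_ext_apply, co_ext_apply, map_sum]
  simp

theorem ext_complex (x : Q.N ℂ) : ext ψ ℂ x = ψ x := by
  conv_rhs => rw [eq_sum_bas x, map_sum]
  change ∑ c, co x c • mapN (algebraMap ℂ ℂ) (ψ (bas c)) = _
  refine Finset.sum_congr rfl fun c _ => ?_
  rw [map_smul]
  rfl

theorem ext_incl (x : Q.N ℂ) :
    ext ψ R (mapN (algebraMap ℂ R) x) = mapN (algebraMap ℂ R) (ψ x) := by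
  have := mapN_ext ψ (Algebra.linearMap ℂ R) x
  rw [ext_complex] at this
  exact this.symm

theorem mapN_ext' (f : R →ₗ[ℂ] ℂ) (x : Q.N R) : mapN f (ext ψ R x) = ψ (mapN f x) := by
  rw [mapN_ext, ext_complex]

open Classical in
/-- The product of `∏ det g_j` and `g⁻¹`, a polynomial in `g`. -/
noncomputable def adj (g : Q.En R) : Q.En R :=
  fun i => (∏ j ∈ Finset.univ.erase i, (g j).det) • (g i).adjugate

theorem adj_map (φ : R →+* S) (g : Q.En R) :
    (fun i => (adj g i).map φ) = adj fun i => (g i).map φ := by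
  funext i
  simp only [adj]
  rw [Matrix.map_smul' _ _ _ (map_mul φ), map_prod]
  congr 1
  · exact Finset.prod_congr rfl fun j _ => φ.map_det _
  · exact φ.map_adjugate _

theorem adj_eq {g : Q.En R} (hg : ∀ i, IsUnit (g i).det) :
    adj g = (∏ j, (g j).det) • fun i => (g i)⁻¹ := by
  classical
  funext i
  simp only [adj, Pi.smul_apply]
  rw [Matrix.inv_def, smul_smul, ← Finset.mul_prod_erase _ _ (Finset.mem_univ i), mul_right_comm,
    Ring.mul_inverse_cancel _ (hg i), one_mul]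

theorem act_adj {g : Q.En R} (hg : ∀ i, IsUnit (g i).det) (x : Q.N R) :
    act g (adj g) x = (∏ j, (g j).det) • Q.gauge g x := by
  rw [adj_eq hg, act_smul, gauge_eq_act]

/-- `ψ` commutes with `G(ℂ)`. -/
def Comm (ψ : Q.N ℂ →ₗ[ℂ] Q.N ℂ) : Prop :=
  ∀ g : GG Q.v, ψ ∘ₗ Q.gauge (fun i => g i) = Q.gauge (fun i => g i) ∘ₗ ψ

variable {ψ}

theorem Comm.gauge (h : Comm ψ) {g : Q.En ℂ} (hg : ∀ i, IsUnit (g i).det) (x : Q.N ℂ) :
    ψ (Q.gauge g x) = Q.gauge g (ψ x) :=
  LinearMap.congr_fun (h fun i => Matrix.nonsingInvUnit (g i) (hg i)) x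

/-- The generic point of `End(V)`. -/
noncomputable def gen (Q : Quiv I E) :
    Q.En (MvPolynomial (Σ i : I, Fin (Q.v i) × Fin (Q.v i)) ℂ) :=
  fun i => Matrix.of fun a b => MvPolynomial.X ⟨i, a, b⟩

theorem mapN_alg (φ : R →ₐ[ℂ] S) (x : Q.N ℂ) :
    mapN φ (mapN (algebraMap ℂ R) x) = mapN (algebraMap ℂ S) x :=
  co_ext fun c => by simp

theorem Comm.gen (h : Comm ψ) (x : Q.N ℂ) :
    ext ψ _ (act (gen Q) (adj (gen Q)) (mapN (algebraMap ℂ _) x)) =
      act (gen Q) (adj (gen Q)) (mapN (algebraMap ℂ _) (ψ x)) := by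
  refine co_ext fun c => ?_
  have hD : (∏ j, (QL.gen Q j).det) ≠ 0 := by
    intro h0
    have h1 := congrArg (MvPolynomial.eval fun c : (Σ i : I, Fin (Q.v i) × Fin (Q.v i)) =>
      (1 : Matrix (Fin (Q.v c.1)) (Fin (Q.v c.1)) ℂ) c.2.1 c.2.2) h0
    rw [map_prod, map_zero, Finset.prod_eq_one] at h1
    · exact one_ne_zero h1
    · intro j _
      rw [RingHom.map_det]
      refine Eq.trans (congrArg Matrix.det ?_) Matrix.det_one
      ext a b
      simp [QL.gen]
  refine mul_left_cancel₀ hD (MvPolynomial.funext fun a => ?_)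
  rw [map_mul, map_mul]
  by_cases h0 : MvPolynomial.eval a (∏ j, (QL.gen Q j).det) = 0
  · rw [h0, zero_mul, zero_mul]
  congr 1
  let φ : MvPolynomial (Σ i : I, Fin (Q.v i) × Fin (Q.v i)) ℂ →ₐ[ℂ] ℂ := MvPolynomial.aeval a
  have hφ : ∀ p, MvPolynomial.eval a p = φ p := fun p => rfl
  have hg : ∀ i, IsUnit ((QL.gen Q i).map (φ : _ →+* ℂ)).det := fun i => by
    rw [map_prod, Finset.prod_eq_zero_iff] at h0
    refine isUnit_iff_ne_zero.2 fun h1 => h0 ⟨i, Finset.mem_univ _, ?_⟩
    rw [RingHom.map_det]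
    exact h1
  have e1 : ∀ y : Q.N ℂ, mapN φ (act (QL.gen Q) (adj (QL.gen Q)) (mapN (algebraMap ℂ _) y)) =
      (∏ j, ((QL.gen Q j).map (φ : _ →+* ℂ)).det) •
        Q.gauge (fun i => (QL.gen Q i).map (φ : _ →+* ℂ)) y := fun y => by
    have := mapN_act (φ : _ →+* ℂ) (QL.gen Q) (adj (QL.gen Q)) (mapN (algebraMap ℂ _) y)
    rw [adj_map, act_adj hg] at this
    refine this.trans ?_
    congr 2
    exact mapN_alg φ y
  rw [hφ, hφ, ← co_mapN φ, ← co_mapN φ, e1]
  congr 1
  refine (mapN_ext' ψ φ.toLinearMap _).trans ?_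
  rw [show (⇑φ.toLinearMap) = ⇑φ from rfl, e1, map_smul, h.gauge hg]

/-- An endomorphism that commutes with `G(ℂ)` commutes with `G(S)` after extension of scalars. -/
theorem Comm.ext_gauge (h : Comm ψ) {g : Q.En S} (hg : ∀ i, IsUnit (g i).det) (x : Q.N S) :
    ext ψ S (Q.gauge g x) = Q.gauge g (ext ψ S x) := by
  have key : ∀ y : Q.N ℂ, ext ψ S (Q.gauge g (mapN (algebraMap ℂ S) y)) =
      Q.gauge g (mapN (algebraMap ℂ S) (ψ y)) := fun y => by
    let φ : MvPolynomial (Σ i : I, Fin (Q.v i) × Fin (Q.v i)) ℂ →ₐ[ℂ] S :=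
      MvPolynomial.aeval fun c => g c.1 c.2.1 c.2.2
    have hgφ : (fun i => (QL.gen Q i).map (φ : _ →+* S)) = g := by
      funext i
      ext a b
      simp [QL.gen, φ]
    have e1 : ∀ y : Q.N ℂ, mapN φ (act (QL.gen Q) (adj (QL.gen Q)) (mapN (algebraMap ℂ _) y)) =
        (∏ j, (g j).det) • Q.gauge g (mapN (algebraMap ℂ S) y) := fun y => by
      have := mapN_act (φ : _ →+* S) (QL.gen Q) (adj (QL.gen Q)) (mapN (algebraMap ℂ _) y)
      rw [adj_map, hgφ, act_adj hg] at this
      refine this.trans ?_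
      congr 2
      exact mapN_alg φ y
    have h1 := congrArg (mapN φ) (h.gen y)
    rw [e1] at h1
    have h2 := mapN_ext ψ φ.toLinearMap
      (act (QL.gen Q) (adj (QL.gen Q)) (mapN (algebraMap ℂ _) y))
    rw [show (⇑φ.toLinearMap) = ⇑φ from rfl, h1, e1, map_smul] at h2
    have hu : IsUnit (∏ j, (g j).det) := IsUnit.prod_iff.2 fun j _ => hg j
    exact (hu.smul_left_cancel.1 h2).symm
  rw [eq_sum_bas x]
  simp only [map_sum, map_smul, key, ext_incl]

end ext

end Vale.Agent.P291Z.QL
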