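import Vale.Agent.P291Z.QL.Lie

/-!
# Stability in terms of the Lie algebra action, and its invariance
-/

set_option linter.unusedSectionVars false
set_option linter.unusedSimpArgs false

namespace Vale.Agent.P291Z.QL

open Set Function Matrix Quiv Flav

section mat

variable {m n : Type} [Fintype m] [Fintype n] [DecidableEq m] [DecidableEq n]

theorem mem_range_iff {P : Matrix n n ℂ} (hP : P * P = P) (u : n → ℂ) :
    u ∈ LinearMap.range P.mulVecLin ↔ (1 - P) *ᵥ u = 0 := by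
  constructor
  · rintro ⟨v, rfl⟩
    simp [Matrix.mulVec_mulVec, Matrix.sub_mul, hP]
  · intro h
    rw [Matrix.sub_mulVec, Matrix.one_mulVec, sub_eq_zero] at h
    exact ⟨u, h.symm⟩

theorem eq_zero_iff_mulVec (M : Matrix m n ℂ) : M = 0 ↔ ∀ v, M *ᵥ v = 0 := by
  rw [Matrix.ext_iff_mulVec]
  simp

theorem kills_iff (P : Matrix n n ℂ) (x : Matrix m n ℂ) :
    (∀ u ∈ LinearMap.range P.mulVecLin, x *ᵥ u = 0) ↔ x * P = 0 := by
  rw [eq_zero_iff_mulVec]
  constructor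
  · intro h v
    rw [← Matrix.mulVec_mulVec]
    exact h _ ⟨v, rfl⟩
  · rintro h _ ⟨v, rfl⟩
    rw [Matrix.mulVecLin_apply, Matrix.mulVec_mulVec, h]

theorem pres_iff (P : Matrix n n ℂ) {P' : Matrix m m ℂ} (hP' : P' * P' = P') (x : Matrix m n ℂ) :
    (∀ u ∈ LinearMap.range P.mulVecLin, x *ᵥ u ∈ LinearMap.range P'.mulVecLin) ↔
      (1 - P') * x * P = 0 := by
  rw [← kills_iff]
  simp only [mem_range_iff hP', Matrix.mulVec_mulVec]

theorem into_iff {P' : Matrix m m ℂ} (hP' : P' * P' = P') (x : Matrix m n ℂ) :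
    (∀ u, x *ᵥ u ∈ LinearMap.range P'.mulVecLin) ↔ (1 - P') * x = 0 := by
  rw [eq_zero_iff_mulVec]
  simp only [mem_range_iff hP', Matrix.mulVec_mulVec]

theorem eq_zero_of_trace {M : Matrix m n ℂ} (h : ∀ x : Matrix n m ℂ, (M * x).trace = 0) :
    M = 0 := by
  ext a b
  simpa [Matrix.trace_mul_single] using h (Matrix.single b a 1)

theorem exists_proj (U : Submodule ℂ (n → ℂ)) :
    ∃ P : Matrix n n ℂ, P * P = P ∧ LinearMap.range P.mulVecLin = U := by
  obtain ⟨V, hV⟩ := U.exists_isCompl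
  have h : (LinearMap.toMatrix' (U.projection V hV)).mulVecLin = U.projection V hV :=
    Matrix.toLin'_toMatrix' _
  refine ⟨LinearMap.toMatrix' (U.projection V hV), ?_, by rw [h, Submodule.range_projection]⟩
  rw [← LinearMap.toMatrix'_comp]
  congr 1
  ext1 a
  ext1
  exact Submodule.projection_apply_of_mem_left hV (Submodule.projection_apply_mem hV _)

end mat

variable {I E Φ Φ' : Type} {Q : Quiv I E} [Fintype Φ] [Fintype Φ'] [Fintype I] [Fintype E]
  {A : Flav Q Φ} {A' : Flav Q Φ'}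

/-- A point of `N^*` as a linear form. -/
noncomputable def frm (p : A.ND) : Q.N ℂ →ₗ[ℂ] ℂ := ContinuousLinearMap.toLinearMap p

/-- A point of `N` as a pair of tuples of matrices. -/
def vec (s : A.NN) : Q.N ℂ := s

open Classical in
theorem frm_left (p : A.ND) (e : E) (x : Matrix (Fin (Q.v (Q.t e))) (Fin (Q.v (Q.s e))) ℂ) :
    frm p (Pi.single e x, 0) = (yy p e * x).trace := by
  induction x using Matrix.induction_on' with
  | h_zero => rw [Pi.single_zero, Matrix.mul_zero, Matrix.trace_zero]; exact map_zero (frm p)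
  | h_add x y hx hy =>
    rw [Matrix.mul_add, Matrix.trace_add, ← hx, ← hy, ← map_add, Pi.single_add]
    simp
  | h_std_basis a b c =>
    rw [Matrix.trace_mul_single]
    change _ = MulOpposite.op c • frm p (Pi.single e (Matrix.single a b 1), 0)
    rw [op_smul_eq_smul, ← map_smul, Prod.smul_mk, smul_zero, ← Pi.single_smul,
      Matrix.smul_single, smul_eq_mul, mul_one]

open Classical in
theorem frm_right (p : A.ND) (i : I) (x : Matrix (Fin (Q.w i)) (Fin (Q.v i)) ℂ) :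
    frm p (0, Pi.single i x) = (ii p i * x).trace := by
  induction x using Matrix.induction_on' with
  | h_zero => rw [Pi.single_zero, Matrix.mul_zero, Matrix.trace_zero]; exact map_zero (frm p)
  | h_add x y hx hy =>
    rw [Matrix.mul_add, Matrix.trace_add, ← hx, ← hy, ← map_add, Pi.single_add]
    simp
  | h_std_basis a b c =>
    rw [Matrix.trace_mul_single]
    change _ = MulOpposite.op c • frm p (0, Pi.single i (Matrix.single a b 1))
    rw [op_smul_eq_smul, ← map_smul, Prod.smul_mk, smul_zero, ← Pi.single_smul,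
      Matrix.smul_single, smul_eq_mul, mul_one]

/-- The trace formula for the pairing of `N^*` and `N`. -/
theorem frm_eq (p : A.ND) (z : Q.N ℂ) :
    frm p z = ∑ e, (yy p e * z.1 e).trace + ∑ i, (ii p i * z.2 i).trace := by
  classical
  have h : z = ∑ e, ((Pi.single e (z.1 e), 0) : Q.N ℂ) +
      ∑ i, ((0, Pi.single i (z.2 i)) : Q.N ℂ) := by
    refine Prod.ext ?_ ?_
    · simp [Prod.fst_sum, Finset.univ_sum_single]
    · simp [Prod.snd_sum, Finset.univ_sum_single]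
  conv_lhs => rw [h, map_add, map_sum, map_sum]
  congr 1
  · refine Finset.sum_congr rfl fun e _ => ?_
    rw [← frm_left]
  · refine Finset.sum_congr rfl fun e _ => ?_
    rw [← frm_right]

/-- `s` has weights `0, 1` for `ξ`, and `p` vanishes on the part of weight `1`. -/
def Cond (ξ : Q.En ℂ) (z : A.NN × A.ND) : Prop :=
  Q.lie ξ (Q.lie ξ (vec z.1)) - Q.lie ξ (vec z.1) = 0 ∧
    ∀ x, frm z.2 (Q.lie ξ (Q.lie ξ x) + Q.lie ξ x) = 0

/-- The subspaces given by the ranges of matrices. -/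
def rg (P : Q.En ℂ) : ∀ i, Submodule ℂ (Fin (Q.v i) → ℂ) := fun i => LinearMap.range (P i).mulVecLin

section formulas

variable {P : Q.En ℂ} (hP : ∀ i, P i * P i = P i)
include hP

theorem mul_PP {m : Type} [Fintype m] (i : I) (x : Matrix (Fin (Q.v i)) m ℂ) :
    P i * (P i * x) = P i * x := by
  rw [← Matrix.mul_assoc, hP]

theorem lie_sub (x : Q.N ℂ) : Q.lie P (Q.lie P x) - Q.lie P x =
    (fun e => (2 : ℂ) • ((1 - P (Q.t e)) * x.1 e * P (Q.s e)), fun i => (2 : ℂ) • (x.2 i * P i)) := by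
  refine Prod.ext (funext fun e => ?_) (funext fun i => ?_)
  · simp [lie, Matrix.mul_sub, Matrix.sub_mul, Matrix.mul_assoc, hP, mul_PP hP, two_smul]
    abel
  · simp [lie, Matrix.mul_assoc, hP, two_smul]

theorem lie_add (x : Q.N ℂ) : Q.lie P (Q.lie P x) + Q.lie P x =
    (fun e => (2 : ℂ) • (P (Q.t e) * x.1 e * (1 - P (Q.s e))), 0) := by
  refine Prod.ext (funext fun e => ?_) (funext fun i => ?_)
  · simp [lie, Matrix.mul_sub, Matrix.sub_mul, Matrix.mul_assoc, hP, mul_PP hP, two_smul]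
    abel
  · simp [lie, Matrix.mul_assoc, hP]

theorem lie_sub' (x : Q.N ℂ) : Q.lie (P - 1) (Q.lie (P - 1) x) - Q.lie (P - 1) x =
    (fun e => (2 : ℂ) • ((1 - P (Q.t e)) * x.1 e * P (Q.s e)), 0) := by
  refine Prod.ext (funext fun e => ?_) (funext fun i => ?_)
  · simp [lie, Matrix.mul_sub, Matrix.sub_mul, Matrix.mul_assoc, hP, mul_PP hP, two_smul]
    abel
  · simp [lie, Matrix.mul_sub, Matrix.sub_mul, Matrix.mul_assoc, hP]

theorem lie_add' (x : Q.N ℂ) : Q.lie (P - 1) (Q.lie (P - 1) x) + Q.lie (P - 1) x =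
    (fun e => (2 : ℂ) • (P (Q.t e) * x.1 e * (1 - P (Q.s e))),
      fun i => (2 : ℂ) • (x.2 i * (1 - P i))) := by
  refine Prod.ext (funext fun e => ?_) (funext fun i => ?_)
  · simp [lie, Matrix.mul_sub, Matrix.sub_mul, Matrix.mul_assoc, hP, mul_PP hP, two_smul]
    abel
  · simp [lie, Matrix.mul_sub, Matrix.sub_mul, Matrix.mul_assoc, hP, two_smul]

theorem isSub_iff (z : A.NN × A.ND) : IsSub z (rg P) ↔
    (∀ e, (1 - P (Q.t e)) * (vec z.1).1 e * P (Q.s e) = 0) ∧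
      ∀ e, (1 - P (Q.s e)) * yy z.2 e * P (Q.t e) = 0 := by
  rw [← forall_and]
  exact forall_congr' fun e => and_congr (pres_iff _ (hP _) _) (pres_iff _ (hP _) _)

end formulas

theorem frm_zero_iff (p : A.ND) (a b c : Q.En ℂ) :
    (∀ x : Q.N ℂ, frm p (fun e => (2 : ℂ) • (a (Q.t e) * x.1 e * b (Q.s e)),
      fun i => (2 : ℂ) • (x.2 i * c i)) = 0) ↔
    (∀ e, b (Q.s e) * yy p e * a (Q.t e) = 0) ∧ ∀ i, c i * ii p i = 0 := by
  classical
  have h1 : ∀ x : Q.N ℂ, frm p (fun e => (2 : ℂ) • (a (Q.t e) * x.1 e * b (Q.s e)),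
      fun i => (2 : ℂ) • (x.2 i * c i)) =
      2 * (∑ e, (b (Q.s e) * yy p e * a (Q.t e) * x.1 e).trace +
        ∑ i, (c i * ii p i * x.2 i).trace) := fun x => by
    rw [frm_eq, mul_add, Finset.mul_sum, Finset.mul_sum]
    congr 1
    · refine Finset.sum_congr rfl fun e _ => ?_
      rw [Matrix.mul_smul, Matrix.trace_smul, smul_eq_mul, ← Matrix.mul_assoc,
        Matrix.trace_mul_comm]
      simp only [Matrix.mul_assoc]
    · refine Finset.sum_congr rfl fun e _ => ?_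
      rw [Matrix.mul_smul, Matrix.trace_smul, smul_eq_mul, ← Matrix.mul_assoc,
        Matrix.trace_mul_comm]
      simp only [Matrix.mul_assoc]
  simp only [h1, mul_eq_zero, two_ne_zero, false_or]
  constructor
  · intro h
    refine ⟨fun e => eq_zero_of_trace fun x => ?_, fun i => eq_zero_of_trace fun x => ?_⟩
    · have := h (Pi.single e x, 0)
      rw [Finset.sum_eq_single e] at this
      · simpa using this
      · intro e' _ he
        simp [Pi.single_eq_of_ne he]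
      · simp
    · have := h (0, Pi.single i x)
      rw [Finset.sum_eq_single i] at this
      · simpa using this
      · intro e' _ he
        simp [Pi.single_eq_of_ne he]
      · simp
  · rintro ⟨h, h'⟩ x
    simp [h, h']

theorem cond_iff {P : Q.En ℂ} (hP : ∀ i, P i * P i = P i) (z : A.NN × A.ND) :
    Cond P z ↔ IsSub z (rg P) ∧ ∀ i, ∀ u ∈ rg P i, (vec z.1).2 i *ᵥ u = 0 := by
  have h := frm_zero_iff z.2 P (1 - P) 0
  simp only [Pi.zero_apply, Matrix.mul_zero, smul_zero, Matrix.zero_mul, implies_true, and_true,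
    Pi.sub_apply, Pi.one_apply] at h
  simp only [rg, kills_iff]
  rw [isSub_iff hP, Cond, lie_sub hP, ← h]
  simp only [lie_add hP, Prod.mk_eq_zero, funext_iff, Pi.zero_apply, smul_eq_zero,
    two_ne_zero, false_or]
  tauto

theorem cond_iff' {P : Q.En ℂ} (hP : ∀ i, P i * P i = P i) (z : A.NN × A.ND) :
    Cond (P - 1) z ↔ IsSub z (rg P) ∧ ∀ i a, ii z.2 i *ᵥ a ∈ rg P i := by
  have h := frm_zero_iff z.2 P (1 - P) (1 - P)
  simp only [Pi.sub_apply, Pi.one_apply] at h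
  rw [isSub_iff hP, Cond, lie_sub' hP]
  simp only [lie_add' hP, h, rg, into_iff (hP _), Prod.mk_eq_zero, funext_iff, Pi.zero_apply,
    smul_eq_zero, two_ne_zero, false_or]
  tauto

section transfer

variable (T : Q.N ℂ →ₗ[ℂ] Q.N ℂ) (hT : Injective T) {g : Q.En ℂ} (hg : ∀ i, IsUnit (g i).det)
  (hl : ∀ ξ x, T (Q.lie ξ x) = Q.lie (fun i => g i * ξ i * (g i)⁻¹) (T x))
  {z : A.NN × A.ND} {z' : A'.NN × A'.ND} (h1 : vec z'.1 = T (vec z.1))
  (h2 : ∀ x, frm z'.2 (T x) = frm z.2 x)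
include hT hl h1 h2

theorem Cond.of_conj {ξ : Q.En ℂ} (h : Cond (fun i => g i * ξ i * (g i)⁻¹) z') : Cond ξ z := by
  refine ⟨hT ?_, fun x => ?_⟩
  · rw [map_sub, hl, hl, map_zero, ← h1]
    exact h.1
  · rw [← h2, map_add, hl, hl]
    exact h.2 _

include hg

theorem exists_sub (U : ∀ i, Submodule ℂ (Fin (Q.v i) → ℂ)) (hU : IsSub z' U) :
    ∃ U₀ : ∀ i, Submodule ℂ (Fin (Q.v i) → ℂ),
      (∀ i, Module.finrank ℂ (U₀ i) = Module.finrank ℂ (U i)) ∧
      ((∀ i, ∀ u ∈ U i, z'.1.2 i *ᵥ u = 0) → IsSub z U₀ ∧ ∀ i, ∀ u ∈ U₀ i, z.1.2 i *ᵥ u = 0) ∧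
      ((∀ i a, ii z'.2 i *ᵥ a ∈ U i) → IsSub z U₀ ∧ ∀ i a, ii z.2 i *ᵥ a ∈ U₀ i) := by
  choose P hP hU' using fun i => exists_proj (U i)
  obtain rfl : rg P = U := funext hU'
  have hP₀ : ∀ i, ((g i)⁻¹ * P i * g i) * ((g i)⁻¹ * P i * g i) = (g i)⁻¹ * P i * g i := fun i => by
    simp only [Matrix.mul_assoc, Matrix.mul_nonsing_inv_cancel_left _ _ (hg i), mul_PP hP]
  have hc : ∀ i, g i * ((g i)⁻¹ * P i * g i) * (g i)⁻¹ = P i := fun i => by
    simp only [Matrix.mul_assoc, Matrix.mul_nonsing_inv_cancel_left _ _ (hg i),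
      Matrix.mul_nonsing_inv _ (hg i), Matrix.mul_one]
  refine ⟨rg fun i => (g i)⁻¹ * P i * g i, fun i => ?_, fun h => ?_, fun h => ?_⟩
  · change Matrix.rank _ = Matrix.rank _
    rw [Matrix.rank_mul_eq_left_of_isUnit_det _ _ (hg i),
      Matrix.rank_mul_eq_right_of_isUnit_det _ _ (Matrix.isUnit_nonsing_inv_det _ (hg i))]
  · refine (cond_iff hP₀ z).1 (Cond.of_conj T hT hl h1 h2 ?_)
    simp only [hc]
    exact (cond_iff hP z').2 ⟨hU, h⟩
  · refine (cond_iff' hP₀ z).1 (Cond.of_conj T hT hl h1 h2 ?_)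
    have : (fun i => g i * ((fun i => (g i)⁻¹ * P i * g i) - 1 : Q.En ℂ) i * (g i)⁻¹) = P - 1 := by
      funext i
      simp only [Pi.sub_apply, Pi.one_apply, Matrix.mul_sub, Matrix.sub_mul, hc, Matrix.mul_one,
        Matrix.mul_nonsing_inv _ (hg i)]
    rw [this]
    exact (cond_iff' hP z').2 ⟨hU, h⟩

theorem semiSt_of_conj (ν : I → ℤ) (h : SemiSt ν z) : SemiSt ν z' := by
  intro U hU
  obtain ⟨U₀, hr, ha, hb⟩ := exists_sub T hT hg hl h1 h2 U hU
  have hp : pair ν U₀ = pair ν U := by simp only [pair, hr]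
  rw [← hp]
  exact ⟨fun h' => (h U₀ (ha h').1).1 (ha h').2, fun h' => (h U₀ (hb h').1).2 (hb h').2⟩

theorem st_of_conj (ν : I → ℤ) (h : St ν z) : St ν z' := by
  intro U hU
  obtain ⟨U₀, hr, ha, hb⟩ := exists_sub T hT hg hl h1 h2 U hU
  have hp : pair ν U₀ = pair ν U := by simp only [pair, hr]
  rw [← hp]
  refine ⟨fun h' ⟨i, hi⟩ => (h U₀ (ha h').1).1 (ha h').2 ⟨i, fun h0 => hi ?_⟩,
    fun h' ⟨i, hi⟩ => (h U₀ (hb h').1).2 (hb h').2 ⟨i, fun h0 => hi ?_⟩⟩
  · rw [← Submodule.finrank_eq_zero, ← hr, h0, finrank_bot]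
  · refine Submodule.eq_top_of_finrank_eq ?_
    rw [← hr, h0, finrank_top]

end transfer

section comm

variable {ψ : Q.N ℂ →ₗ[ℂ] Q.N ℂ} (hψ : Comm ψ) {z : A.NN × A.ND} {z' : A'.NN × A'.ND}
  (h1 : vec z'.1 = ψ (vec z.1)) (h2 : ∀ x, frm z'.2 (ψ x) = frm z.2 x)
include hψ h1 h2

/-- An endomorphism commuting with `G` preserves the moment map. -/
theorem Comm.mu (ξ : Q.En ℂ) : mu z' ξ = mu z ξ := by
  change frm z'.2 (Q.lie ξ (vec z'.1)) = frm z.2 (Q.lie ξ (vec z.1))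
  rw [← h2, hψ.lie, h1]

/-- An automorphism commuting with `G` preserves semistability. -/
theorem Comm.semiSt (hi : Injective ψ) (ν : I → ℤ) (h : SemiSt ν z) : SemiSt ν z' :=
  semiSt_of_conj ψ hi (g := 1) (fun _ => by simp) (fun ξ x => by simpa using hψ.lie ξ x) h1 h2 ν h

/-- An automorphism commuting with `G` preserves stability. -/
theorem Comm.st (hi : Injective ψ) (ν : I → ℤ) (h : St ν z) : St ν z' :=
  st_of_conj ψ hi (g := 1) (fun _ => by simp) (fun ξ x => by simpa using hψ.lie ξ x) h1 h2 ν h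

end comm

theorem comm_rho (A : Flav Q Φ) (f : Φ → ℂˣ) : Comm (A.ρ f) := A.comm f

theorem isUnit_det_ga (g : GG (Q.nn Φ)) (i : I) : IsUnit (ga Q Φ g i).det :=
  Matrix.isUnit_det_of_left_inverse (B := ga Q Φ g⁻¹ i)
    (by rw [← Pi.mul_apply, ← map_mul, inv_mul_cancel, map_one, Pi.one_apply])

theorem rep_lie (A : Flav Q Φ) (g : GG (Q.nn Φ)) (ξ : Q.En ℂ) (x : Q.N ℂ) :
    A.rep g (Q.lie ξ x) = Q.lie (fun i => ga Q Φ g i * ξ i * (ga Q Φ g i)⁻¹) (A.rep g x) := by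
  change Q.gauge (ga Q Φ g) (A.ρ (fl Q Φ g) (Q.lie ξ x)) = _
  rw [(comm_rho A _).lie, gauge_lie (isUnit_det_ga g)]
  rfl

theorem rep_inv (A : Flav Q Φ) (g : GG (Q.nn Φ)) (x : Q.N ℂ) : A.rep g⁻¹ (A.rep g x) = x := by
  rw [← Module.End.mul_apply, ← map_mul, inv_mul_cancel, map_one, Module.End.one_apply]

theorem rep_injective (A : Flav Q Φ) (g : GG (Q.nn Φ)) : Injective (A.rep g) :=
  LeftInverse.injective (rep_inv A g)

theorem frm_smul (g : GG (Q.nn Φ)) (p : A.ND) (x : Q.N ℂ) :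
    frm (g • p) x = frm p (A.rep g⁻¹ x) := rfl

/-- Equivariance of the moment map. -/
theorem mu_smul_eq (g : GG (Q.nn Φ)) (z : A.NN × A.ND) (ξ : Q.En ℂ) :
    mu (g • z) ξ = mu z fun i => ga Q Φ g⁻¹ i * ξ i * (ga Q Φ g⁻¹ i)⁻¹ := by
  change frm z.2 (A.rep g⁻¹ (Q.lie ξ (A.rep g (vec z.1)))) = frm z.2 (Q.lie _ (vec z.1))
  rw [rep_lie, rep_inv]

theorem st_smul (ν : I → ℤ) (g : GG (Q.nn Φ)) {z : A.NN × A.ND} (h : St ν z) : St ν (g • z) :=
  st_of_conj (A.rep g) (rep_injective A g) (isUnit_det_ga g) (rep_lie A g) (z := z) (z' := g • z)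
    rfl
    (fun x => congrArg (frm z.2) (rep_inv A g x)) ν h

theorem semiSt_smul (ν : I → ℤ) (g : GG (Q.nn Φ)) {z : A.NN × A.ND} (h : SemiSt ν z) :
    SemiSt ν (g • z) :=
  semiSt_of_conj (A.rep g) (rep_injective A g) (isUnit_det_ga g) (rep_lie A g) (z := z)
    (z' := g • z) rfl
    (fun x => congrArg (frm z.2) (rep_inv A g x)) ν h

end Vale.Agent.P291Z.QL
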