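import Vale.Agent.P291Z.Coul0
import Vale.Agent.P291Z.QL.Stab

/-!
# Lattices in `V(K)`: basic lemmas
-/

set_option linter.unusedSectionVars false
set_option linter.unusedSimpArgs false

namespace Vale.Agent.P291Z.QL

open Set Function Matrix Quiv

/-- `a ∈ t^m O` -/
def Ord (m : ℤ) (a : KK) : Prop := ∀ k < m, a.coeff k = 0

theorem ord_iff {m : ℤ} {a : KK} : Ord m a ↔ (m : WithTop ℤ) ≤ a.orderTop := by
  rw [HahnSeries.le_orderTop_iff_forall]
  simp [Ord]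

theorem Ord.zero (m : ℤ) : Ord m 0 := fun _ _ => rfl

theorem Ord.add {m : ℤ} {a b : KK} (ha : Ord m a) (hb : Ord m b) : Ord m (a + b) := fun k hk => by
  rw [HahnSeries.coeff_add, ha k hk, hb k hk, add_zero]

theorem Ord.sub {m : ℤ} {a b : KK} (ha : Ord m a) (hb : Ord m b) : Ord m (a - b) := fun k hk => by
  rw [HahnSeries.coeff_sub, ha k hk, hb k hk, sub_zero]

theorem Ord.smul {m : ℤ} {a : KK} (c : ℂ) (ha : Ord m a) : Ord m (c • a) := fun k hk => by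
  rw [HahnSeries.coeff_smul, ha k hk, smul_zero]

theorem Ord.sum {m : ℤ} {J : Type} {s : Finset J} {a : J → KK} (h : ∀ j ∈ s, Ord m (a j)) :
    Ord m (∑ j ∈ s, a j) := fun k hk => by
  rw [HahnSeries.coeff_sum]
  exact Finset.sum_eq_zero fun j hj => h j hj k hk

theorem Ord.mono {m m' : ℤ} {a : KK} (ha : Ord m a) (h : m' ≤ m) : Ord m' a :=
  fun k hk => ha k (hk.trans_le h)

theorem Ord.mul {m m' : ℤ} {a b : KK} (ha : Ord m a) (hb : Ord m' b) : Ord (m + m') (a * b) := by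
  rw [ord_iff] at *
  exact (WithTop.coe_add m m').trans_le ((add_le_add ha hb).trans HahnSeries.orderTop_add_le_mul)

theorem ord_single (m : ℤ) (c : ℂ) : Ord m (HahnSeries.single m c) :=
  fun _ hk => HahnSeries.coeff_single_of_ne hk.ne

theorem ord_tp (m : ℤ) : Ord m (tp m) := ord_single m 1

theorem ord_C (c : ℂ) : Ord 0 (HahnSeries.C c) := ord_single 0 c

theorem tp_add (a b : ℤ) : tp (a + b) = tp a * tp b := by
  simp [tp, HahnSeries.single_mul_single]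

theorem tp_zero : tp 0 = 1 := rfl

theorem ord_zero_iff {a : KK} : Ord 0 a ↔ ∃ c : OO, algebraMap OO KK c = a := by
  constructor
  · intro h
    refine ⟨PowerSeries.mk fun n => a.coeff n, ?_⟩
    ext k
    rw [LaurentSeries.coe_algebraMap, PowerSeries.coeff_coe]
    split_ifs with hk
    · exact (h k hk).symm
    · rw [PowerSeries.coeff_mk, Int.natAbs_of_nonneg (not_lt.1 hk)]
  · rintro ⟨c, rfl⟩ k hk
    rw [LaurentSeries.coe_algebraMap, PowerSeries.coeff_coe, if_pos hk]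

/-- `O` as a subring of `K`. -/
noncomputable def OS : Subring KK := (algebraMap OO KK).range

theorem mem_OS {a : KK} : a ∈ OS ↔ Ord 0 a := ord_zero_iff.symm

theorem ord_det {n : Type} [Fintype n] [DecidableEq n] {m : Matrix n n KK}
    (h : ∀ a b, Ord 0 (m a b)) : Ord 0 m.det := by
  rw [← mem_OS, Matrix.det_apply']
  exact sum_mem fun σ _ => mul_mem (intCast_mem _ _) (prod_mem fun i _ => mem_OS.2 (h _ _))

theorem Ord.order_nonneg {a : KK} (h : Ord 0 a) : 0 ≤ a.order :=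
  HahnSeries.zero_le_orderTop_iff.1 (ord_iff.1 h)

theorem order_eq_zero {a b : KK} (ha : Ord 0 a) (hb : Ord 0 b) (h : a * b = 1) : a.order = 0 := by
  have h1 := HahnSeries.order_mul (left_ne_zero_of_mul_eq_one h) (right_ne_zero_of_mul_eq_one h)
  rw [h, HahnSeries.order_one] at h1
  have := ha.order_nonneg
  have := hb.order_nonneg
  omega

theorem ord_mulVec {m n : Type} [Fintype n] {p q : ℤ} {x : Matrix m n KK} {y : n → KK}
    (hx : ∀ a b, Ord p (x a b)) (hy : ∀ b, Ord q (y b)) (a : m) : Ord (p + q) ((x *ᵥ y) a) :=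
  Ord.sum fun b _ => (hx a b).mul (hy b)

theorem ord_pi_single {n : Type} [DecidableEq n] (a b : n) : Ord 0 ((Pi.single a 1 : n → KK) b) := by
  rw [← mem_OS, Pi.single_apply]
  split_ifs
  exacts [one_mem _, zero_mem _]

variable {I E : Type} {Q : Quiv I E}

theorem smul_mem_lat {L : Q.Lat} {i : I} {c : KK} (hc : Ord 0 c) {y : Fin (Q.v i) → KK}
    (hy : y ∈ L i) : c • y ∈ L i := by
  obtain ⟨c, rfl⟩ := ord_zero_iff.1 hc
  exact (L i).smul_mem c hy

theorem mem_mulL {g : Q.En KK} {L : Q.Lat} {i : I} {y : Fin (Q.v i) → KK} :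
    y ∈ mulL g L i ↔ ∃ z ∈ L i, g i *ᵥ z = y := Iff.rfl

theorem mem_lat {g : Q.En KK} {i : I} {y : Fin (Q.v i) → KK} :
    y ∈ lat g i ↔ ∃ c : Fin (Q.v i) → KK, (∀ b, Ord 0 (c b)) ∧ g i *ᵥ c = y := by
  have h : ∀ c : Fin (Q.v i) → OO,
      g i *ᵥ (fun b => algebraMap OO KK (c b)) = ∑ b, c b • (g i)ᵀ b := fun c => by
    rw [Matrix.mulVec_eq_sum]
    exact Finset.sum_congr rfl fun b _ => by rw [op_smul_eq_smul]; rfl
  refine (Submodule.mem_span_range_iff_exists_fun OO (v := fun b => (g i)ᵀ b)).trans ?_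
  constructor
  · rintro ⟨c, rfl⟩
    exact ⟨_, fun b => ord_zero_iff.2 ⟨c b, rfl⟩, h c⟩
  · rintro ⟨c, hc, rfl⟩
    choose c' hc' using fun b => ord_zero_iff.1 (hc b)
    exact ⟨c', by rw [← h, funext hc']⟩

theorem mem_lat_one {i : I} {y : Fin (Q.v i) → KK} :
    y ∈ (lat 1 : Q.Lat) i ↔ ∀ b, Ord 0 (y b) := by
  rw [mem_lat]
  simp

theorem le_iff {L L' : Q.Lat} : L ≤ L' ↔ ∀ i, ∀ y ∈ L i, y ∈ L' i := Iff.rfl

theorem mulL_lat (g h : Q.En KK) : mulL g (lat h) = lat (g * h) := by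
  funext i
  ext y
  rw [mem_mulL, mem_lat]
  constructor
  · rintro ⟨z, hz, rfl⟩
    obtain ⟨c, hc, rfl⟩ := mem_lat.1 hz
    exact ⟨c, hc, by rw [Pi.mul_apply, Matrix.mulVec_mulVec]⟩
  · rintro ⟨c, hc, rfl⟩
    exact ⟨_, mem_lat.2 ⟨c, hc, rfl⟩, by rw [Pi.mul_apply, Matrix.mulVec_mulVec]⟩

theorem mulL_mono (g : Q.En KK) {L L' : Q.Lat} (h : L ≤ L') : mulL g L ≤ mulL g L' :=
  fun i => Submodule.map_mono (h i)

/-- Matrices with entries in `O`. -/
def IsInt (m : Q.En KK) : Prop := ∀ i a b, Ord 0 (m i a b)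

theorem isInt_cst (g : Q.En ℂ) : IsInt (cst g) := fun _ _ _ => ord_C _

theorem lat_mul_le (g : Q.En KK) {m : Q.En KK} (hm : IsInt m) : lat (g * m) ≤ lat g := by
  refine le_iff.2 fun i y hy => ?_
  obtain ⟨c, hc, rfl⟩ := mem_lat.1 hy
  exact mem_lat.2 ⟨m i *ᵥ c, fun b => by simpa using ord_mulVec (hm i) hc b,
    by rw [Pi.mul_apply, Matrix.mulVec_mulVec]⟩

theorem exists_of_lat_le {g h : Q.En KK} (hle : lat h ≤ lat g) : ∃ m, IsInt m ∧ h = g * m := by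
  have h1 : ∀ i b, ∃ c : Fin (Q.v i) → KK, (∀ a, Ord 0 (c a)) ∧ g i *ᵥ c = (h i)ᵀ b :=
    fun i b => mem_lat.1 (hle i (Submodule.subset_span ⟨b, rfl⟩))
  choose c hc hc' using h1
  refine ⟨fun i => Matrix.of fun a b => c i b a, fun i a b => hc i b a, ?_⟩
  funext i
  ext1 a b
  exact (congrFun (hc' i b) a).symm

theorem exists_of_lat_eq {g h : Q.En KK} (hg : ∀ i, (g i).det ≠ 0) (he : lat g = lat h) :
    ∃ m : Q.En KK, h = g * m ∧ ∀ i, (m i).det ≠ 0 ∧ (m i).det.order = 0 := by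
  obtain ⟨m, hm, h1⟩ := exists_of_lat_le he.ge
  obtain ⟨m', hm', h2⟩ := exists_of_lat_le he.le
  refine ⟨m, h1, fun i => ?_⟩
  have h3 : (m i).det * (m' i).det = 1 := by
    refine mul_left_cancel₀ (hg i) ?_
    rw [← mul_assoc, ← Matrix.det_mul, ← Pi.mul_apply, ← h1, ← Matrix.det_mul, ← Pi.mul_apply,
      ← h2, mul_one]
  exact ⟨left_ne_zero_of_mul_eq_one h3, order_eq_zero (ord_det (hm i)) (ord_det (hm' i)) h3⟩

theorem det_ne_zero_of_lat_eq {g h : Q.En KK} (hg : ∀ i, (g i).det ≠ 0) (he : lat g = lat h)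
    (i : I) : (h i).det ≠ 0 := by
  obtain ⟨m, rfl, hm⟩ := exists_of_lat_eq hg he
  rw [Pi.mul_apply, Matrix.det_mul]
  exact mul_ne_zero (hg i) (hm i).1

theorem lat_mul_cst (g : Q.En KK) {a b : Q.En ℂ} (h : a * b = 1) : lat (g * cst a) = lat g := by
  refine le_antisymm (lat_mul_le g (isInt_cst a)) ?_
  have := lat_mul_le (g * cst a) (isInt_cst b)
  rwa [mul_assoc, ← cst_mul, h, cst_one, mul_one] at this

theorem en_smul_mul {k : Type} [CommRing k] (c : k) (a b : Q.En k) : (c • a) * b = c • (a * b) :=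
  smul_mul_assoc _ _ _

theorem en_mul_smul {k : Type} [CommRing k] (c : k) (a b : Q.En k) : a * (c • b) = c • (a * b) :=
  mul_smul_comm _ _ _

theorem mulL_smul_one (c : KK) (g : Q.En KK) (L : Q.Lat) :
    mulL (c • 1) (mulL g L) = mulL g (mulL (c • 1) L) := by
  rw [← mulL_mul, ← mulL_mul, en_smul_mul, en_mul_smul, one_mul, mul_one]

theorem mulL_tp_add (a b : ℤ) (L : Q.Lat) :
    mulL (tp (a + b) • 1) L = mulL (tp a • 1) (mulL (tp b • 1) L) := by
  rw [← mulL_mul, en_smul_mul, one_mul, smul_smul, tp_add]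

theorem mulL_smul_le {c : KK} (hc : Ord 0 c) (L : Q.Lat) : mulL (c • 1) L ≤ L := by
  refine le_iff.2 fun i y hy => ?_
  obtain ⟨z, hz, rfl⟩ := mem_mulL.1 hy
  rw [Pi.smul_apply, Pi.one_apply, Matrix.smul_mulVec, Matrix.one_mulVec]
  exact smul_mem_lat hc hz

theorem mulL_tp_le {a b : ℤ} (h : b ≤ a) (L : Q.Lat) :
    mulL (tp a • 1) L ≤ mulL (tp b • 1) L := by
  rw [show a = b + (a - b) by ring, mulL_tp_add]
  exact mulL_mono _ (mulL_smul_le ((ord_tp _).mono (sub_nonneg.2 h)) L)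

theorem mem_tp {m : ℤ} {i : I} {y : Fin (Q.v i) → KK} :
    y ∈ mulL (tp m • 1) (lat 1 : Q.Lat) i ↔ ∀ b, Ord m (y b) := by
  rw [mem_mulL]
  simp only [mem_lat_one, Pi.smul_apply, Pi.one_apply, Matrix.smul_mulVec, Matrix.one_mulVec]
  constructor
  · rintro ⟨z, hz, rfl⟩ b
    simpa using (ord_tp m).mul (hz b)
  · intro h
    refine ⟨tp (-m) • y, fun b => by simpa using (ord_tp (-m)).mul (h b), ?_⟩
    rw [smul_smul, ← tp_add, add_neg_cancel, tp_zero, one_smul]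

theorem inv_mul_of_det {g : Q.En KK} (hg : ∀ i, (g i).det ≠ 0) : g⁻¹ * g = 1 :=
  funext fun i => Matrix.nonsing_inv_mul _ (hg i).isUnit

theorem mul_inv_of_det {g : Q.En KK} (hg : ∀ i, (g i).det ≠ 0) : g * g⁻¹ = 1 :=
  funext fun i => Matrix.mul_nonsing_inv _ (hg i).isUnit

theorem det_inv_ne_zero {g : Q.En KK} (hg : ∀ i, (g i).det ≠ 0) (i : I) : (g⁻¹ i).det ≠ 0 :=
  (Matrix.isUnit_nonsing_inv_det _ (hg i).isUnit).ne_zero

theorem en_inv_mul (g h : Q.En KK) : (g * h)⁻¹ = h⁻¹ * g⁻¹ :=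
  funext fun i => Matrix.mul_inv_rev (g i) (h i)

theorem cst_inv {a b : Q.En ℂ} (h : a * b = 1) : (cst a)⁻¹ = cst b :=
  funext fun i => Matrix.inv_eq_right_inv
    (congrFun (by rw [← cst_mul, h, cst_one] : cst a * cst b = 1) i)

theorem det_cst_ne_zero {a b : Q.En ℂ} (h : a * b = 1) (i : I) : (cst a i).det ≠ 0 :=
  (Matrix.isUnit_det_of_right_inverse (B := cst b i)
    (congrFun (by rw [← cst_mul, h, cst_one] : cst a * cst b = 1) i)).ne_zero

section rel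

variable {n n' : ℕ} {χ χ' : I → ℤ} {L L' L'' : Q.Lat}

theorem rel_mulL {g : Q.En KK} (hg : ∀ i, (g i).det ≠ 0) (h : Rel n χ L L') :
    Rel n χ (mulL g L) (mulL g L') := by
  obtain ⟨⟨a, b, hab, rfl, rfl⟩, h1, h2⟩ := h
  refine ⟨⟨g * a, b, fun i => ⟨?_, (hab i).2⟩, mulL_lat _ _, ?_⟩, ?_, ?_⟩
  · rw [Pi.mul_apply, Matrix.det_mul]
    exact mul_ne_zero (hg i) (hab i).1
  · rw [mulL_lat, mul_assoc]
  · rw [mulL_smul_one]
    exact mulL_mono g h1
  · rw [mulL_smul_one]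
    exact mulL_mono g h2

theorem rel_trans (h : Rel n χ L L') (h' : Rel n' χ' L' L'') : Rel (n + n') (χ + χ') L L'' := by
  obtain ⟨⟨a, b, hab, rfl, rfl⟩, h1, h2⟩ := h
  obtain ⟨⟨a', b', hab', he, rfl⟩, h1', h2'⟩ := h'
  obtain ⟨m, rfl, hm⟩ := exists_of_lat_eq (fun i => by
    rw [Pi.mul_apply, Matrix.det_mul]
    exact mul_ne_zero (hab i).1 (hab i).2.1) he
  refine ⟨⟨a, b * m * b', fun i => ⟨(hab i).1, ?_, ?_⟩, rfl, by simp only [mul_assoc]⟩, ?_, ?_⟩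
  · simp only [Pi.mul_apply, Matrix.det_mul]
    exact mul_ne_zero (mul_ne_zero (hab i).2.1 (hm i).1) (hab' i).2.1
  · simp only [Pi.mul_apply, Matrix.det_mul, Pi.add_apply]
    rw [HahnSeries.order_mul (mul_ne_zero (hab i).2.1 (hm i).1) (hab' i).2.1,
      HahnSeries.order_mul (hab i).2.1 (hm i).1, (hm i).2, (hab i).2.2, (hab' i).2.2, add_zero]
  · rw [Nat.cast_add, add_comm, mulL_tp_add]
    exact (mulL_mono _ h1).trans h1'
  · rw [Nat.cast_add, neg_add, add_comm, mulL_tp_add]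
    exact h2'.trans (mulL_mono _ h2)

theorem rel_mono (hn : n ≤ n') (h : Rel n χ L L') : Rel n' χ L L' :=
  ⟨h.1, (mulL_tp_le (by exact_mod_cast hn) L).trans h.2.1,
    h.2.2.trans (mulL_tp_le (by simpa using hn) L)⟩

theorem rel_left (h : Rel n χ L L') : ∃ g : Q.En KK, (∀ i, (g i).det ≠ 0) ∧ L = lat g := by
  obtain ⟨⟨a, b, hab, h1, -⟩, -⟩ := h
  exact ⟨a, fun i => (hab i).1, h1⟩

theorem rel_right (h : Rel n χ L L') : ∃ g : Q.En KK, (∀ i, (g i).det ≠ 0) ∧ L' = lat g := by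
  obtain ⟨⟨a, b, hab, -, h1⟩, -⟩ := h
  refine ⟨a * b, fun i => ?_, h1⟩
  rw [Pi.mul_apply, Matrix.det_mul]
  exact mul_ne_zero (hab i).1 (hab i).2.1

theorem det_of_rel_left {g : Q.En KK} (hg : lat g = L) (h : Rel n χ L L') (i : I) :
    (g i).det ≠ 0 := by
  obtain ⟨a, ha, rfl⟩ := rel_left h
  exact det_ne_zero_of_lat_eq ha hg.symm i

theorem det_of_rel_right {g : Q.En KK} (hg : lat g = L') (h : Rel n χ L L') (i : I) :
    (g i).det ≠ 0 := by
  obtain ⟨a, ha, rfl⟩ := rel_right h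
  exact det_ne_zero_of_lat_eq ha hg.symm i

theorem rel_inv {g : Q.En KK} (hg : lat g = L) (h : Rel n χ L L') :
    Rel n χ (lat 1) (mulL g⁻¹ L') := by
  have hd := det_of_rel_left hg h
  have := rel_mulL (det_inv_ne_zero hd) h
  rwa [← hg, mulL_lat, inv_mul_of_det hd] at this

end rel

section pres

variable {L : Q.Lat} {x y : Q.N KK}

theorem Pres.sub (hx : Pres L x) (hy : Pres L y) : Pres L (x - y) := by
  refine ⟨fun e z hz => ?_, fun i z hz l => ?_⟩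
  · rw [Prod.fst_sub, Pi.sub_apply, Matrix.sub_mulVec]
    exact sub_mem (hx.1 e z hz) (hy.1 e z hz)
  · rw [Prod.snd_sub, Pi.sub_apply, Matrix.sub_mulVec]
    exact Ord.sub (hx.2 i z hz l) (hy.2 i z hz l)

theorem Pres.gauge {g : Q.En KK} (hg : ∀ i, (g i).det ≠ 0) (hx : Pres L x) :
    Pres (mulL g L) (Q.gauge g x) := by
  refine ⟨fun e z hz => ?_, fun i z hz l => ?_⟩
  · obtain ⟨z, hz', rfl⟩ := mem_mulL.1 hz
    refine mem_mulL.2 ⟨_, hx.1 e z hz', ?_⟩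
    change _ = (g (Q.t e) * x.1 e * (g (Q.s e))⁻¹) *ᵥ _
    rw [Matrix.mulVec_mulVec, Matrix.mulVec_mulVec,
      Matrix.nonsing_inv_mul_cancel_right _ _ (hg _).isUnit]
  · obtain ⟨z, hz', rfl⟩ := mem_mulL.1 hz
    change Ord 0 (((x.2 i * (g i)⁻¹) *ᵥ _) l)
    rw [Matrix.mulVec_mulVec, Matrix.nonsing_inv_mul_cancel_right _ _ (hg _).isUnit]
    exact hx.2 i z hz' l

theorem pres_of_ord {n d : ℕ} (hd : 2 * n ≤ d) (h1 : mulL (tp n • 1) (lat 1) ≤ L)
    (h2 : L ≤ mulL (tp (-n) • 1) (lat 1)) (hx : ∀ c, Ord d (co x c)) : Pres L x := by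
  refine ⟨fun e z hz => h1 _ (mem_tp.2 fun a => ?_), fun i z hz l => ?_⟩
  · exact (ord_mulVec (fun a b => hx (Sum.inl ⟨e, a, b⟩)) (mem_tp.1 (h2 _ hz)) a).mono (by omega)
  · exact (ord_mulVec (fun a b => hx (Sum.inr ⟨i, a, b⟩)) (mem_tp.1 (h2 _ hz)) l).mono (by omega)

theorem pres_one_iff : Pres (lat 1) x ↔ ∀ c, Ord 0 (co x c) := by
  constructor
  · rintro h (⟨e, a, b⟩ | ⟨i, a, b⟩)
    · have := mem_lat_one.1 (h.1 e (Pi.single b 1) (mem_lat_one.2 (ord_pi_single b))) a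
      rwa [Matrix.mulVec_single_one] at this
    · have := h.2 i (Pi.single b 1) (mem_lat_one.2 (ord_pi_single b)) a
      rwa [Matrix.mulVec_single_one] at this
  · intro h
    refine pres_of_ord (n := 0) (d := 0) le_rfl ?_ ?_ h
    · rw [Nat.cast_zero, tp_zero, one_smul, mulL_one]
    · rw [Nat.cast_zero, neg_zero, tp_zero, one_smul, mulL_one]

end pres

end Vale.Agent.P291Z.QL
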