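import Vale.Agent.P291Z.QL.Ext

/-!
# Endomorphisms of `N` commuting with `G` commute with its Lie algebra
-/

set_option linter.unusedSectionVars false
set_option linter.unusedSimpArgs false

namespace Vale.Agent.P291Z.QL

open Set Function Matrix Quiv

variable {I E : Type} {Q : Quiv I E}

section ring

variable {R S : Type} [CommRing R] [CommRing S]

theorem mapN_lie (φ : R →+* S) (ξ : Q.En R) (x : Q.N R) :
    mapN φ (Q.lie ξ x) = Q.lie (fun i => (ξ i).map φ) (mapN φ x) := by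
  refine Prod.ext (funext fun e => ?_) (funext fun i => ?_)
  · simp [lie, mapN, Matrix.map_mul, Matrix.map_sub _ (map_sub φ)]
  · simp [lie, mapN, Matrix.map_mul, Matrix.map_neg _ (map_neg φ)]

theorem gauge_eps {ε : R} (hε : ε * ε = 0) (ξ : Q.En R) (x : Q.N R) :
    Q.gauge (1 + ε • ξ) x = x + ε • Q.lie ξ x := by
  have h : ∀ i, ((1 + ε • ξ) i)⁻¹ = 1 - ε • ξ i := fun i => by
    apply Matrix.inv_eq_left_inv
    simp [Matrix.sub_mul, Matrix.mul_add, smul_sub, smul_smul, hε]
  refine Prod.ext (funext fun e => ?_) (funext fun i => ?_)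
  · simp only [Quiv.gauge, lie, h, LinearMap.coe_mk, AddHom.coe_mk]
    simp [Matrix.mul_sub, Matrix.add_mul, smul_sub, smul_smul, hε, smul_add]
    abel
  · simp only [Quiv.gauge, lie, h, LinearMap.coe_mk, AddHom.coe_mk]
    simp [Matrix.mul_sub, sub_eq_add_neg, Matrix.mul_add]

theorem isUnit_det_eps {ε : R} (hε : ε * ε = 0) (ξ : Q.En R) (i : I) :
    IsUnit ((1 + ε • ξ) i).det := by
  refine Matrix.isUnit_det_of_left_inverse (B := 1 - ε • ξ i) ?_
  simp [Matrix.sub_mul, Matrix.mul_add, smul_sub, smul_smul, hε]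

theorem gauge_lie {g : Q.En R} (hg : ∀ i, IsUnit (g i).det) (ξ : Q.En R) (x : Q.N R) :
    Q.gauge g (Q.lie ξ x) = Q.lie (fun i => g i * ξ i * (g i)⁻¹) (Q.gauge g x) := by
  refine Prod.ext (funext fun e => ?_) (funext fun i => ?_)
  · simp [Quiv.gauge, lie, Matrix.mul_sub, Matrix.sub_mul, Matrix.mul_assoc,
      Matrix.nonsing_inv_mul_cancel_left _ _ (hg _)]
  · simp [Quiv.gauge, lie, Matrix.mul_assoc, Matrix.nonsing_inv_mul_cancel_left _ _ (hg _)]

end ring

variable [Fintype I] [Fintype E] {ψ : Q.N ℂ →ₗ[ℂ] Q.N ℂ}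

/-- An endomorphism of `N` that commutes with `G` commutes with the Lie algebra of `G`. -/
theorem Comm.lie (h : Comm ψ) (ξ : Q.En ℂ) (x : Q.N ℂ) : ψ (Q.lie ξ x) = Q.lie ξ (ψ x) := by
  have hε : (DualNumber.eps : DualNumber ℂ) * DualNumber.eps = 0 := DualNumber.eps_mul_eps
  have h1 := h.ext_gauge (isUnit_det_eps hε fun i => (ξ i).map (algebraMap ℂ _))
    (mapN (algebraMap ℂ _) x)
  rw [gauge_eps hε, gauge_eps hε, map_add, map_smul, ← mapN_lie, ext_incl, ext_incl, ← mapN_lie,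
    add_right_inj] at h1
  refine co_ext fun c => ?_
  have h2 := congrArg (fun y => TrivSqZeroExt.snd (co y c)) h1
  simpa [TrivSqZeroExt.algebraMap_eq_inl] using h2

end Vale.Agent.P291Z.QL
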