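import Vale.Agent.P291Z.QL.LatL

/-!
# Truncated elements of `N(O)` and the action of `G × F`
-/

set_option linter.unusedSectionVars false
set_option linter.unusedSimpArgs false

namespace Vale.Agent.P291Z.QL

open Set Function Matrix Quiv Flav

attribute [local instance 2000] HahnSeries.instAlgebra

variable {I E Φ : Type} {Q : Quiv I E} [Fintype Φ]

theorem poly_eq (d : ℕ) (s : ℕ → Q.N ℂ) :
    poly d s = ∑ k ∈ Finset.range d, tp k • mapN (algebraMap ℂ KK) (s k) := rfl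

theorem coef_eq (x : Q.N KK) (k : ℕ) :
    coef x k = mapN (HahnSeries.coeff.linearMap (R := ℂ) (k : ℤ)) x := rfl

theorem co_coef (x : Q.N KK) (k : ℕ) (c : Ix Q) : co (coef x k) c = (co x c).coeff k := by
  rw [coef_eq, co_mapN]
  rfl

theorem poly_succ {d : ℕ} {s : ℕ → Q.N ℂ} (h : s d = 0) : poly (d + 1) s = poly d s := by
  rw [poly_eq, poly_eq, Finset.sum_range_succ, h, add_eq_left]
  exact co_ext fun c => by simp

theorem coeff_co_poly (d : ℕ) (s : ℕ → Q.N ℂ) (c : Ix Q) (j : ℤ) :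
    (co (poly d s) c).coeff j = ∑ k ∈ Finset.range d, if j = k then co (s k) c else 0 := by
  rw [poly_eq, co_sum, HahnSeries.coeff_sum]
  refine Finset.sum_congr rfl fun k _ => ?_
  rw [co_smul, co_mapN]
  change (HahnSeries.single (k : ℤ) 1 * HahnSeries.single 0 (co (s k) c)).coeff j = _
  rw [HahnSeries.single_mul_single, add_zero, one_mul, HahnSeries.coeff_single]
  split_ifs <;> rfl

theorem ord_sub_poly {y : Q.N KK} (hy : ∀ c, Ord 0 (co y c)) (d : ℕ) (c : Ix Q) :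
    Ord d (co (y - poly d fun k => if k < d then coef y k else 0) c) := by
  intro j hj
  rw [co_sub, HahnSeries.coeff_sub, coeff_co_poly, sub_eq_zero]
  rcases lt_or_ge j 0 with h | h
  · rw [hy c j h]
    exact (Finset.sum_eq_zero fun k _ => if_neg (by omega)).symm
  · lift j to ℕ using h
    have hj' : j < d := by exact_mod_cast hj
    rw [Finset.sum_eq_single j, if_pos rfl, if_pos hj', co_coef]
    · intro k _ hk
      exact if_neg (by exact_mod_cast hk.symm)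
    · intro h
      exact absurd (Finset.mem_range.2 hj') h

theorem ga_mul_inv (g : GG (Q.nn Φ)) : ga Q Φ g * ga Q Φ g⁻¹ = 1 := by
  rw [← map_mul, mul_inv_cancel, map_one]

theorem ga_inv_mul (g : GG (Q.nn Φ)) : ga Q Φ g⁻¹ * ga Q Φ g = 1 := by
  rw [← map_mul, inv_mul_cancel, map_one]

theorem smul_lat (g : GG (Q.nn Φ)) (L : Q.Lat) : g • L = mulL (cst (ga Q Φ g)) L := rfl

theorem det_cst_ga (g : GG (Q.nn Φ)) (i : I) : (cst (ga Q Φ g) i).det ≠ 0 :=
  det_cst_ne_zero (ga_mul_inv g) i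

theorem laur_smul {n : ℕ} (h : GG (Sum.elim (Q.nn Φ) (Q.nn Φ))) (w : WW Q Φ n) :
    laur (h • w).1 =
      cst (ga Q Φ (fstG _ _ h)) * laur w.1 * cst (ga Q Φ (sndG _ _ h)⁻¹) := by
  rw [laur, laur, Finset.mul_sum, Finset.sum_mul]
  refine Finset.sum_congr rfl fun k _ => ?_
  rw [en_mul_smul, en_smul_mul, ← cst_mul, ← cst_mul, ← map_inv]
  rfl

theorem laur_smul_inv {n : ℕ} (h : GG (Sum.elim (Q.nn Φ) (Q.nn Φ))) (w : WW Q Φ n) :
    (laur (h • w).1)⁻¹ =
      cst (ga Q Φ (sndG _ _ h)) * ((laur w.1)⁻¹ * cst (ga Q Φ (fstG _ _ h)⁻¹)) := by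
  rw [laur_smul, en_inv_mul, en_inv_mul, cst_inv (ga_inv_mul _), cst_inv (ga_mul_inv _)]

theorem laur_zero {n : ℕ} : laur (0 : WW Q Φ n).1 = 0 := by
  refine Finset.sum_eq_zero fun k _ => ?_
  have : cst (0 : Q.En ℂ) = 0 := funext fun i => Matrix.map_zero _ (map_zero _)
  refine (congrArg (tp k.1 • ·) this).trans ?_
  funext i
  ext1 a b
  exact mul_zero _

theorem lat_zero_le (L : Q.Lat) : lat 0 ≤ L := by
  refine le_iff.2 fun i y hy => ?_
  obtain ⟨c, -, rfl⟩ := mem_lat.1 hy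
  rw [Pi.zero_apply, Matrix.zero_mulVec]
  exact zero_mem _

variable [Fintype I] [Fintype E] (ψ : Q.N ℂ →ₗ[ℂ] Q.N ℂ)

theorem ext_poly (d : ℕ) (s : ℕ → Q.N ℂ) : ext ψ KK (poly d s) = poly d fun k => ψ (s k) := by
  simp only [poly_eq, map_sum, map_smul, ext_incl]

theorem coef_ext (x : Q.N KK) (k : ℕ) : coef (ext ψ KK x) k = ψ (coef x k) :=
  mapN_ext' ψ (HahnSeries.coeff.linearMap (R := ℂ) (k : ℤ)) x

theorem ext_gauge_cst {g : Q.En ℂ} (hg : ∀ i, IsUnit (g i).det) (x : Q.N KK) :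
    ext (Q.gauge g) KK x = Q.gauge (cst g) x := by
  rw [eq_sum_bas x]
  simp only [map_sum, map_smul, ext_incl]
  refine Finset.sum_congr rfl fun c _ => congrArg _ ?_
  exact mapN_gauge (algebraMap ℂ KK) hg _

theorem ord_ext {m : ℤ} {x : Q.N KK} (hx : ∀ c, Ord m (co x c)) (c : Ix Q) :
    Ord m (co (ext ψ KK x) c) := by
  rw [co_ext_apply]
  exact Ord.sum fun c' _ => (hx c').smul _

variable {ψ}

theorem Comm.pres (h : Comm ψ) {g : Q.En KK} (hg : ∀ i, (g i).det ≠ 0) {x : Q.N KK}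
    (hx : Pres (lat g) x) : Pres (lat g) (ext ψ KK x) := by
  have h1 := Pres.gauge (det_inv_ne_zero hg) hx
  rw [mulL_lat, inv_mul_of_det hg, pres_one_iff] at h1
  have h2 := Pres.gauge hg (pres_one_iff.2 (ord_ext ψ h1))
  rwa [mulL_lat, mul_one, ← h.ext_gauge fun i => (hg i).isUnit, ← LinearMap.comp_apply (Q.gauge g),
    ← gauge_mul, mul_inv_of_det hg, gauge_one] at h2

variable (A : Flav Q Φ)

theorem poly_rep (g : GG (Q.nn Φ)) (d : ℕ) (s : ℕ → Q.N ℂ) :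
    (poly d fun k => A.rep g (s k)) =
      Q.gauge (cst (ga Q Φ g)) (ext (A.ρ (fl Q Φ g)) KK (poly d s)) := by
  rw [← ext_gauge_cst (isUnit_det_ga g), ext_poly, ext_poly]
  rfl

theorem pres_smul (g : GG (Q.nn Φ)) {n : ℕ} {χ : I → ℤ} {L₀ L : Q.Lat} (hL : Rel n χ L₀ L)
    {d : ℕ} {s : ℕ → Q.N ℂ} (h : Pres L (poly d s)) :
    Pres (g • L) (poly d fun k => A.rep g (s k)) := by
  obtain ⟨a, ha, rfl⟩ := rel_right hL
  rw [poly_rep]
  exact Pres.gauge (det_cst_ga g) ((comm_rho A _).pres ha h)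

theorem tr_smul {n : ℕ} (h : GG (Sum.elim (Q.nn Φ) (Q.nn Φ))) {w : WW Q Φ n}
    (hw : ∀ i, (laur w.1 i).det ≠ 0) (f : Φ → ℂˣ) (d : ℕ) (s : ℕ → Q.N ℂ) (k : ℕ) :
    A.ρ (fl Q Φ (fstG _ _ h) * f * (fl Q Φ (sndG _ _ h))⁻¹)⁻¹
      (coef (Q.gauge (laur (h • w).1)⁻¹ (poly d fun k => A.rep (fstG _ _ h) (s k))) k) =
    A.rep (sndG _ _ h) (A.ρ f⁻¹ (coef (Q.gauge (laur w.1)⁻¹ (poly d s)) k)) := by
  rw [poly_rep, laur_smul_inv, ← LinearMap.comp_apply (Q.gauge _), ← gauge_mul,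
    mul_assoc (cst _), mul_assoc (laur _)⁻¹, ← cst_mul, ga_inv_mul, cst_one, mul_one, gauge_mul, LinearMap.comp_apply,
    ← (comm_rho A _).ext_gauge fun i => (det_inv_ne_zero hw i).isUnit,
    ← ext_gauge_cst (isUnit_det_ga _), coef_ext, coef_ext, (comm_rho A _).gauge (isUnit_det_ga _)]
  refine congrArg (Q.gauge _) ?_
  rw [← Module.End.mul_apply, ← Module.End.mul_apply, ← map_mul, ← map_mul]
  congr 2
  rw [mul_comm, mul_inv, mul_inv, inv_inv, ← mul_assoc, ← mul_assoc, mul_inv_cancel, one_mul,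
    mul_comm]

theorem pres_tr {n' d' : ℕ} (hd : 2 * n' ≤ d') {χ' : I → ℤ} {g : Q.En KK} {L L' : Q.Lat}
    (hg : lat g = L) (hL : Rel n' χ' L L') (f : Φ → ℂˣ) {x : Q.N KK} (h : Pres L x)
    (h' : Pres L' x) :
    Pres (mulL g⁻¹ L') (poly d' fun k =>
      if k < d' then A.ρ f (coef (Q.gauge g⁻¹ x) k) else 0) := by
  have hd' := det_of_rel_left hg hL
  have hR := rel_inv hg hL
  have h1 := Pres.gauge (det_inv_ne_zero hd') h
  rw [← hg, mulL_lat, inv_mul_of_det hd', pres_one_iff] at h1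
  have h2 := Pres.gauge (det_inv_ne_zero hd') h'
  obtain ⟨a, ha, he⟩ := rel_right hR
  rw [he] at h2
  have h3 := (comm_rho A f).pres ha h2
  rw [← he] at h3
  have h4 := Pres.sub h3 (pres_of_ord hd hR.2.1 hR.2.2 (ord_sub_poly (ord_ext (A.ρ f) h1) d'))
  simpa only [sub_sub_cancel, coef_ext] using h4

end Vale.Agent.P291Z.QL
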